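import Vale.Agent.P095.W.Final

/-!
P095 (Szabo, Conjecture A): on every separable simple nuclear C*-algebra, unital or not, whose
central sequence algebra has no characters, every action of every countable amenable group admits
countably many unital maps of Z(2,3) into the fixed algebra of the central sequence algebra with
pairwise commuting ranges, and every Z(n,n+1) maps unitally into the fixed algebra; having no
characters is equivalent to receiving a unital map of Z(2,3).
-/

namespace Vale.Agent.P095.Variants.ConjectureA

open Filter Vale.Agent.P101 Vale.Agent.P101.DropN Vale.Agent.P095 Vale.Agent.P095.W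
open scoped Topology BoundedContinuousFunction

theorem result :
    ∀ (A : Type) [NonUnitalCStarAlgebra A] [TopologicalSpace.SeparableSpace A],
    IsTopSimple A → IsNuclearA A → ∀ (w : Ultrafilter ℕ), (w : Filter ℕ) ≤ cofinite →
    ((∃ φ : ZTwoThree → centralSeq (w : Filter ℕ) (Unitization ℂ A),
        IsFixedHomModAnn (w : Filter ℕ) (fun _ : Unit => (StarAlgEquiv.refl ℂ A)) φ) ↔ NoChar A w) ∧
    (NoChar A w → ∀ (G : Type) [Group G] [Countable G], Tracial.Foelner G →
      ∀ α : G →* (A ≃⋆ₐ[ℂ] A),
      (∃ φ : ℕ → ZTwoThree → centralSeq (w : Filter ℕ) (Unitization ℂ A),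
        (∀ k, IsFixedHomModAnn (w : Filter ℕ) (fun g => α g) (φ k)) ∧
        ∀ k l, k ≠ l → ∀ f g, ∀ a : A, Tendsto (fun n =>
          ((φ k f).1 n * (φ l g).1 n - (φ l g).1 n * (φ k f).1 n) * (a : Unitization ℂ A))
          (w : Filter ℕ) (𝓝 0)) ∧
        ∀ n, HasFixedDropN (w : Filter ℕ) (fun g => α g) n) := conjectureA

end Vale.Agent.P095.Variants.ConjectureA
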